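import Vale.Agent.P274.Z.VarDefs

/-! Closed subsets of `ℂ^N` with algebraic singularities; Siegel domains: definitions. -/

open ComplexConjugate

namespace Vale.Agent.P274

/-- `V` has algebraic singularities: near each of its points `V` is biholomorphic to a relatively
open subset of an affine variety. This holds for every affine variety and for every closed complex
submanifold of `ℂ^N`. -/
def HasAlgebraicSingularities {N : ℕ} (V : Set (EuclideanSpace ℂ (Fin N))) : Prop :=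
  ∀ z ∈ V, ∃ W : Set (EuclideanSpace ℂ (Fin N)), IsOpen W ∧ z ∈ W ∧
    ∃ (n : ℕ) (I : Set (MvPolynomial (Fin n) ℂ)) (O : Set (EuclideanSpace ℂ (Fin n))),
      IsOpen O ∧ Z.Bihol (V ∩ W) (zeroSet I ∩ O)

/-- `S ⊂ ℂ^l × ℂ^k` is a Siegel domain (of the second kind, in right half-plane form):
`S = {(z, w) | Re w - F(z, z) ∈ C}`, where `C` is a nonempty open convex cone in `ℝ^k` whose
closure contains no line, and `F : ℂ^l × ℂ^l → ℂ^k` is a Hermitian map such that `F(z, z)` is in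
the closure of `C` for every `z`, and nonzero for `z ≠ 0`. -/
def IsSiegelDomain {l k : ℕ} (S : Set ((Fin l → ℂ) × (Fin k → ℂ))) : Prop :=
  ∃ (C : Set (Fin k → ℝ)) (F : (Fin l → ℂ) →ₗ[ℂ] (Fin l → ℂ) →ₗ⋆[ℂ] (Fin k → ℂ)),
    IsOpen C ∧ C.Nonempty ∧ Convex ℝ C ∧ (∀ t : ℝ, 0 < t → ∀ x ∈ C, t • x ∈ C) ∧
    (∀ x, x ∈ closure C → -x ∈ closure C → x = 0) ∧
    (∀ u v j, F v u j = conj (F u v j)) ∧
    (∀ z, (fun j => (F z z j).re) ∈ closure C) ∧ (∀ z, F z z = 0 → z = 0) ∧
    S = {p | (fun j => (p.2 j).re - (F p.1 p.1 j).re) ∈ C}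

end Vale.Agent.P274
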