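import Vale.Agent.P274.H975.Stein
import Vale.Agent.P274.H975.Defs

/-! Bounded relatively open subsets of closed sets with algebraic singularities: a peak point can
be moved to a smooth peak point. -/

open Filter Metric Set Topology

namespace Vale.Agent.P274.H975

open Vale.Agent.P274 Vale.Agent.P274.Z Vale.Agent.P274.H959

theorem equiHol_of_inter {X : Type*} [NormedAddCommGroup X] [NormedSpace ℂ X] {U W : Set X}
    (hW : IsOpen W) {x : X} (hx : x ∈ W) (h : EquiHol (U ∩ W) x) : EquiHol U x := by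
  intro ε hε
  obtain ⟨δ, hδ, h1⟩ := h ε hε
  obtain ⟨δ2, hδ2, h2⟩ := Metric.isOpen_iff.1 hW x hx
  refine ⟨min δ δ2, lt_min hδ hδ2, fun f hf hfb y hy hyx => ?_⟩
  exact h1 f (hf.mono inter_subset_left) (fun z hz => hfb z hz.1) y
    ⟨hy, h2 (hyx.trans_le (min_le_right _ _))⟩ (hyx.trans_le (min_le_left _ _))

theorem equiHol_of_bihol {X Y : Type*} [NormedAddCommGroup X] [NormedSpace ℂ X]
    [NormedAddCommGroup Y] [NormedSpace ℂ Y] {U : Set X} {V : Set Y} {f : X → Y} {g : Y → X}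
    (h : IsBihol U V f g) {x : X} (hx : x ∈ U) (hV : EquiHol V (f x)) : EquiHol U x := by
  intro ε hε
  obtain ⟨δ, hδ, h1⟩ := hV ε hε
  obtain ⟨δ2, hδ2, h2⟩ := Metric.continuousWithinAt_iff.1 (h.hol.continuousWithinAt hx) δ hδ
  refine ⟨δ2, hδ2, fun φ hφ hφb y hy hyx => ?_⟩
  have h3 := h1 (fun z => φ (g z)) (hφ.comp h.hol_inv h.mapsTo_inv)
    (fun z hz => hφb _ (h.mapsTo_inv hz)) (f y) (h.mapsTo hy) (h2 hy hyx)
  simpa only [h.left_inv y hy, h.left_inv x hx] using h3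

theorem equiHol_zeroSet {N : ℕ} (I : Set (MvPolynomial (Fin N) ℂ))
    {O : Set (EuclideanSpace ℂ (Fin N))} (hO : IsOpen O) {x : EuclideanSpace ℂ (Fin N)}
    (hx : x ∈ zeroSet I ∩ O) : EquiHol (zeroSet I ∩ O) x := by
  set A := euc N with hA
  have hO' : IsOpen (A ⁻¹' O) := hO.preimage A.continuous
  have h1 : A '' (VV (Ideal.span I) ∩ A ⁻¹' O) = zeroSet I ∩ O := by
    rw [image_inter_preimage, image_VV]
  have h2 : A.symm x ∈ VV (Ideal.span I) ∩ A ⁻¹' O := by
    rw [← h1] at hx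
    obtain ⟨w, hw, rfl⟩ := hx
    rwa [A.symm_apply_apply]
  have h3 := (equiHol_alg (Ideal.span I) hO' h2).of_equiv A
  rwa [h1, A.apply_symm_apply] at h3

/-- Restriction of a biholomorphic map to a relatively open subset. -/
theorem bihol_restrict {X Y : Type*} [NormedAddCommGroup X] [NormedSpace ℂ X]
    [NormedAddCommGroup Y] [NormedSpace ℂ Y] {A O1 : Set X} {B O2 : Set Y} {f : X → Y} {g : Y → X}
    (h : IsBihol A (B ∩ O2) f g) (hO2 : IsOpen O2) (hO1 : IsOpen O1) :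
    ∃ O3 : Set Y, IsOpen O3 ∧ IsBihol (A ∩ O1) (B ∩ O3) f g := by
  obtain ⟨u, hu, hu2⟩ := (_root_.continuousOn_iff'.1 h.hol_inv.continuousOn) O1 hO1
  have hO3 : ∀ y, y ∈ B ∩ (O2 ∩ u) ↔ y ∈ B ∩ O2 ∧ g y ∈ O1 := by
    intro y
    have h1 : y ∈ g ⁻¹' O1 ∩ (B ∩ O2) ↔ y ∈ u ∩ (B ∩ O2) := by rw [hu2]
    constructor
    · intro hy
      exact ⟨⟨hy.1, hy.2.1⟩, (h1.2 ⟨hy.2.2, hy.1, hy.2.1⟩).1⟩
    · intro hy
      exact ⟨hy.1.1, hy.1.2, (h1.1 ⟨hy.2, hy.1⟩).1⟩
  refine ⟨O2 ∩ u, hO2.inter hu, h.hol.mono inter_subset_left, h.hol_inv.mono ?_, ?_, ?_, ?_, ?_⟩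
  · intro y hy
    exact ((hO3 y).1 hy).1
  · intro x hx
    exact (hO3 _).2 ⟨h.mapsTo hx.1, by rw [h.left_inv x hx.1]; exact hx.2⟩
  · intro y hy
    have h1 := (hO3 y).1 hy
    exact ⟨h.mapsTo_inv h1.1, h1.2⟩
  · intro x hx
    exact h.left_inv x hx.1
  · intro y hy
    exact h.right_inv y ((hO3 y).1 hy).1

/-- Near a peak point of `U` there is a peak point which is a manifold point of the ambient
set. -/
theorem exists_smooth_peak_near {N : ℕ} {V O U : Set (EuclideanSpace ℂ (Fin N))}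
    (hV : IsClosed V) (hVa : HasAlgebraicSingularities V) (hO : IsOpen O) (hU : U = V ∩ O)
    {q : EuclideanSpace ℂ (Fin N)} (hq : q ∈ closure U) (hpk : IsPeakAt U q)
    {W0 : Set (EuclideanSpace ℂ (Fin N))} (hW0 : IsOpen W0) (hqW0 : q ∈ W0) :
    ∃ q' ∈ closure U, q' ∈ W0 ∧ IsPeakAt U q' ∧
      ∃ n : ℕ, ManPt (EuclideanSpace ℂ (Fin n)) V q' := by
  have hUV : U ⊆ V := by
    rw [hU]
    exact inter_subset_left
  have hclV : closure U ⊆ V := closure_minimal hUV hV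
  have hqV : q ∈ V := hclV hq
  obtain ⟨W1, hW1, hqW1, P, hP, hPq, c, hc, hPle⟩ := hpk
  obtain ⟨W2, hW2, hqW2, n, I, O2, hO2, f, g, hfg⟩ := hVa q hqV
  obtain ⟨r, hr, hrW⟩ : ∃ r > 0, closedBall q r ⊆ W0 ∩ W1 ∩ W2 :=
    Metric.nhds_basis_closedBall.mem_iff.1
      (((hW0.inter hW1).inter hW2).mem_nhds ⟨⟨hqW0, hqW1⟩, hqW2⟩)
  have hrW0 : closedBall q r ⊆ W0 := fun z hz => (hrW hz).1.1
  have hrW1 : closedBall q r ⊆ W1 := fun z hz => (hrW hz).1.2
  have hrW2 : closedBall q r ⊆ W2 := fun z hz => (hrW hz).2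
  -- the estimate on the closure
  have hPcl : ∀ z ∈ closure U, z ∈ W1 → c * ‖z - q‖ ^ 2 ≤ (P z).re := by
    intro z hz hzW
    have h1 : z ∈ closure (U ∩ W1) := by
      have := hW1.inter_closure (t := U) ⟨hzW, hz⟩
      rwa [inter_comm] at this
    refine ContinuousWithinAt.closure_le h1 ?_ ?_ hPle
    · exact (by fun_prop : Continuous fun y : EuclideanSpace ℂ (Fin N) =>
        c * ‖y - q‖ ^ 2).continuousWithinAt
    · exact (Complex.continuous_re.continuousAt.comp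
        (hP.differentiableAt (hW1.mem_nhds hzW)).continuousAt).continuousWithinAt
  -- the small sublevel set
  set S1 : Set (EuclideanSpace ℂ (Fin N)) :=
    ball q r ∩ (fun z => (P z).re) ⁻¹' Iio (c * r ^ 2 / 2) with hS1
  have hS1o : IsOpen S1 := by
    have h1 : ContinuousOn (fun z => (P z).re) (ball q r) :=
      Complex.continuous_re.comp_continuousOn
        (hP.continuousOn.mono ((ball_subset_closedBall).trans hrW1))
    exact h1.isOpen_inter_preimage isOpen_ball isOpen_Iio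
  have hqS1 : q ∈ S1 := by
    refine ⟨mem_ball_self hr, ?_⟩
    rw [mem_preimage, hPq, Complex.zero_re, mem_Iio]
    positivity
  obtain ⟨O3, hO3, hb3⟩ := bihol_restrict hfg hO2 (hS1o.inter hO)
  have hne : (zeroSet I ∩ O3).Nonempty := by
    obtain ⟨u0, hu0S, hu0U⟩ := mem_closure_iff_nhds.1 hq S1 (hS1o.mem_nhds hqS1)
    refine ⟨f u0, hb3.mapsTo ⟨⟨hUV hu0U, hrW2 (ball_subset_closedBall hu0S.1)⟩, hu0S, ?_⟩⟩
    rw [hU] at hu0U
    exact hu0U.2
  obtain ⟨m, G, hG, ⟨u', hu', hGu'⟩, hGm⟩ := exists_good_poly' I hO3 rfl hne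
  set u := g u' with hu
  have huS : u ∈ V ∩ W2 ∩ (S1 ∩ O) := hb3.mapsTo_inv hu'
  have hfu : f u = u' := hb3.right_inv u' hu'
  have huU : u ∈ U := by
    rw [hU]
    exact ⟨huS.1.1, huS.2.2⟩
  have hGu : 0 < ‖G (f u)‖ := by
    rw [hfu]
    exact norm_pos_iff.2 hGu'
  have huP : (P u).re < c * r ^ 2 / 2 := huS.2.1.2
  have hub : u ∈ ball q r := huS.2.1.1
  -- the compact set
  set K : Set (EuclideanSpace ℂ (Fin N)) := closure U ∩ closedBall q r with hK
  have hKc : IsCompact K := (isCompact_closedBall q r).inter_left isClosed_closure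
  have huK : u ∈ K := ⟨subset_closure huU, ball_subset_closedBall hub⟩
  have hKVW : K ⊆ V ∩ W2 := fun z hz => ⟨hclV hz.1, hrW2 hz.2⟩
  have hfK : ContinuousOn f K := hfg.hol.continuousOn.mono hKVW
  have hGK : ContinuousOn (fun z => ‖G (f z)‖) K :=
    (hG.continuous.norm).comp_continuousOn hfK
  have hPK : ContinuousOn (fun z => (P z).re) K :=
    Complex.continuous_re.comp_continuousOn (hP.continuousOn.mono fun z hz => hrW1 hz.2)
  obtain ⟨T, hT⟩ : ∃ T : ℝ, ∀ z ∈ K, ‖G (f z)‖ ≤ T := by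
    obtain ⟨T, hT⟩ := hKc.exists_bound_of_continuousOn hGK
    exact ⟨T, fun z hz => by simpa using hT z hz⟩
  obtain ⟨R, hR⟩ : ∃ R : ℝ, ∀ z ∈ K, ‖z‖ ^ 2 ≤ R := by
    obtain ⟨R, hR⟩ := hKc.exists_bound_of_continuousOn
      (f := fun z : EuclideanSpace ℂ (Fin N) => ‖z‖ ^ 2) (by fun_prop)
    exact ⟨R, fun z hz => by simpa using hR z hz⟩
  have hT0 : 0 < T := hGu.trans_le (hT u huK)
  have hcr : 0 < c * r ^ 2 / 2 := by positivity
  -- the large parameter
  obtain ⟨A, hA⟩ : ∃ A : ℝ, 0 < A ∧ T * Real.exp R < ‖G (f u)‖ * Real.exp (A * (c * r ^ 2 / 2)) := by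
    have h1 : Tendsto (fun A : ℝ => ‖G (f u)‖ * Real.exp (A * (c * r ^ 2 / 2))) atTop atTop :=
      (Real.tendsto_exp_atTop.comp (tendsto_id.atTop_mul_const hcr)).const_mul_atTop hGu
    obtain ⟨A, h2, h3⟩ := ((eventually_gt_atTop (0 : ℝ)).and
      (h1.eventually_gt_atTop (T * Real.exp R))).exists
    exact ⟨A, h2, h3⟩
  obtain ⟨hA0, hA1⟩ := hA
  set Ψ : EuclideanSpace ℂ (Fin N) → ℝ := fun z =>
    ‖G (f z)‖ * Real.exp (-(A * (P z).re) + ‖z‖ ^ 2) with hΨ
  have hΨc : ContinuousOn Ψ K := by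
    refine hGK.mul (Real.continuous_exp.comp_continuousOn ?_)
    exact ((continuousOn_const.mul hPK).neg).add (by fun_prop)
  obtain ⟨q', hq'K, hmax⟩ := hKc.exists_isMaxOn ⟨u, huK⟩ hΨc
  have hmax' : ∀ z ∈ K, Ψ z ≤ Ψ q' := fun z hz => hmax hz
  -- the value at `u`
  have hΨu : ‖G (f u)‖ * Real.exp (-(A * (c * r ^ 2 / 2))) < Ψ u := by
    rw [hΨ]
    simp only
    refine mul_lt_mul_of_pos_left (Real.exp_lt_exp.2 ?_) hGu
    have h1 : A * (P u).re < A * (c * r ^ 2 / 2) := mul_lt_mul_of_pos_left huP hA0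
    have h2 : 0 ≤ ‖u‖ ^ 2 := by positivity
    linarith
  have hΨpos : 0 < Ψ q' := by
    refine lt_of_lt_of_le ?_ (hmax' u huK)
    refine lt_trans ?_ hΨu
    positivity
  have hGq' : G (f q') ≠ 0 := by
    intro h0
    rw [hΨ] at hΨpos
    simp [h0] at hΨpos
  -- the maximum is attained in the open ball
  have hq'b : ‖q' - q‖ < r := by
    by_contra hcon
    push Not at hcon
    have h1 : c * r ^ 2 ≤ (P q').re := by
      have h2 := hPcl q' hq'K.1 (hrW1 hq'K.2)
      have h3 : r ^ 2 ≤ ‖q' - q‖ ^ 2 := pow_le_pow_left₀ hr.le hcon 2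
      have h4 : c * r ^ 2 ≤ c * ‖q' - q‖ ^ 2 := mul_le_mul_of_nonneg_left h3 hc.le
      linarith
    have h2 : Ψ q' ≤ T * Real.exp (-(A * (c * r ^ 2)) + R) := by
      rw [hΨ]
      simp only
      refine mul_le_mul (hT q' hq'K) (Real.exp_le_exp.2 ?_) (Real.exp_pos _).le hT0.le
      have h3 := hR q' hq'K
      have h4 : A * (c * r ^ 2) ≤ A * (P q').re := mul_le_mul_of_nonneg_left h1 hA0.le
      linarith
    have h3 : T * Real.exp (-(A * (c * r ^ 2)) + R) =
        T * Real.exp R * Real.exp (-(A * (c * r ^ 2))) := by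
      rw [Real.exp_add]
      ring
    have h4 : ‖G (f u)‖ * Real.exp (-(A * (c * r ^ 2 / 2))) =
        ‖G (f u)‖ * Real.exp (A * (c * r ^ 2 / 2)) * Real.exp (-(A * (c * r ^ 2))) := by
      rw [mul_assoc, ← Real.exp_add]
      congr 2
      ring
    have h5 := hmax' u huK
    have h6 : T * Real.exp R * Real.exp (-(A * (c * r ^ 2))) <
        ‖G (f u)‖ * Real.exp (A * (c * r ^ 2 / 2)) * Real.exp (-(A * (c * r ^ 2))) :=
      mul_lt_mul_of_pos_right hA1 (Real.exp_pos _)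
    linarith
  have hq'VW : q' ∈ V ∩ W2 := hKVW hq'K
  refine ⟨q', hq'K.1, hrW0 hq'K.2, ?_, m, ?_⟩
  · -- the peak function
    obtain ⟨W3, hW3, hq'W3, f1, hf1, hff1⟩ := hfg.hol q' hq'VW
    have hfq' : f q' = f1 q' := hff1 q' ⟨hq'VW, hq'W3⟩
    set H : EuclideanSpace ℂ (Fin N) → ℂ := fun z => G (f1 z) with hH
    have hHd : DifferentiableOn ℂ H W3 := hG.comp_differentiableOn hf1
    have hHq' : H q' ≠ 0 := by
      rw [hH]
      simp only
      rw [← hfq']
      exact hGq'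
    have hqd : DifferentiableOn ℂ (fun z => H z / H q') W3 := by
      simp only [div_eq_mul_inv]
      exact hHd.mul_const _
    set W4 : Set (EuclideanSpace ℂ (Fin N)) :=
      (W3 ∩ (fun z => H z / H q') ⁻¹' Complex.slitPlane) ∩ (W1 ∩ ball q r) with hW4
    have hW4o : IsOpen W4 :=
      (hqd.continuousOn.isOpen_inter_preimage hW3 Complex.isOpen_slitPlane).inter
        (hW1.inter isOpen_ball)
    have hq'W4 : q' ∈ W4 := by
      refine ⟨⟨hq'W3, ?_⟩, hrW1 hq'K.2, ?_⟩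
      · rw [mem_preimage, div_self hHq']
        exact Complex.one_mem_slitPlane
      · rw [mem_ball, dist_eq_norm]
        exact hq'b
    refine ⟨W4, hW4o, hq'W4, fun z => (A : ℂ) * (P z - P q') - Complex.log (H z / H q') -
      2 * inner ℂ q' (z - q'), ?_, ?_, 1, one_pos, ?_⟩
    · refine DifferentiableOn.sub (DifferentiableOn.sub ?_ ?_) ?_
      · exact ((hP.mono fun z hz => hz.2.1).sub_const _).const_mul _
      · exact (hqd.mono fun z hz => hz.1.1).clog fun z hz => hz.1.2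
      · have h1 : (fun z : EuclideanSpace ℂ (Fin N) => (2 * inner ℂ q' (z - q') : ℂ)) =
            fun z => 2 * innerSL ℂ q' (z - q') := by
          funext z
          rw [innerSL_apply_apply]
        rw [h1]
        exact (((innerSL ℂ q').differentiable.comp
          (differentiable_id.sub_const q')).const_mul 2).differentiableOn
    · simp [div_self hHq']
    · intro z hz
      have hzU : z ∈ U := hz.1
      have hzb : z ∈ ball q r := hz.2.2.2
      have hzK : z ∈ K := ⟨subset_closure hzU, ball_subset_closedBall hzb⟩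
      have hzH : H z ≠ 0 := by
        intro h0
        have h1 : H z / H q' ∈ Complex.slitPlane := hz.2.1.2
        rw [h0, zero_div] at h1
        exact Complex.slitPlane_ne_zero h1 rfl
      have hfz : f z = f1 z := hff1 z ⟨hKVW hzK, hz.2.1.1⟩
      have h1 := hmax' z hzK
      rw [hΨ] at h1
      simp only at h1
      rw [hfz, hfq'] at h1
      have h2 := Real.log_le_log (by
        have : 0 < ‖G (f1 z)‖ := norm_pos_iff.2 hzH
        positivity) h1
      rw [Real.log_mul (norm_ne_zero_iff.2 hzH) (Real.exp_pos _).ne',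
        Real.log_mul (norm_ne_zero_iff.2 hHq') (Real.exp_pos _).ne', Real.log_exp,
        Real.log_exp] at h2
      have h3 : (Complex.log (H z / H q')).re = Real.log ‖G (f1 z)‖ - Real.log ‖G (f1 q')‖ := by
        rw [Complex.log_re, norm_div, Real.log_div (norm_ne_zero_iff.2 hzH)
          (norm_ne_zero_iff.2 hHq')]
      have h4 : ((2 : ℂ) * inner ℂ q' (z - q')).re = 2 * (inner ℂ q' (z - q')).re := by
        simp
      have h5 : ((A : ℂ) * (P z - P q')).re = A * (P z).re - A * (P q').re := by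
        rw [Complex.re_ofReal_mul, Complex.sub_re, mul_sub]
      rw [Complex.sub_re, Complex.sub_re, h3, h4, h5]
      have h6 : ‖z‖ ^ 2 = ‖q'‖ ^ 2 + 2 * (inner ℂ q' (z - q')).re + ‖z - q'‖ ^ 2 := by
        have h7 := @norm_add_sq ℂ (EuclideanSpace ℂ (Fin N)) _ _ _ q' (z - q')
        rw [add_sub_cancel] at h7
        exact h7
      linarith
  · -- the manifold point
    have h1 := hfg.mapsTo hq'VW
    have h2 : ManPt (EuclideanSpace ℂ (Fin m)) (zeroSet I ∩ O2) (f q') :=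
      (hGm (f q') h1.1 hGq').inter_open hO2 h1.2
    have h3 := hfg.symm.manPt h1 h2
    rw [hfg.left_inv q' hq'VW] at h3
    exact h3.of_inter_open hW2

/-- Bounded relatively open subsets of closed sets with algebraic singularities. -/
theorem scaled_of_algebraicSingularities {N : ℕ} {M O U K : Set (EuclideanSpace ℂ (Fin N))}
    (hM : IsClosed M) (hMs : HasAlgebraicSingularities M) (hO : IsOpen O) (hU : U = M ∩ O)
    (hUc : IsConnected U) (hb : Bornology.IsBounded U)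
    (hK : IsCompact K) (hKU : K ⊆ U) (hco : CocompactHol U K)
    {q : EuclideanSpace ℂ (Fin N)} (hq : q ∈ closure U) (hpk : IsPeakAt U q)
    (hsa : IsSemianalyticAt U q) : Scaled U := by
  have hUM : U ⊆ M := by
    rw [hU]
    exact inter_subset_left
  obtain ⟨W0, hW0, hqW0, hcomb⟩ := hsa
  obtain ⟨q', hq', hq'W, hpk', m, hm⟩ := exists_smooth_peak_near hM hMs hO hU hq hpk hW0 hqW0
  have hUS : USet M O U K := by
    refine ⟨hM, hO, hU, hUc.isPreconnected, hb, hK, hKU, hco, fun x hx => ?_⟩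
    obtain ⟨W, hW, hxW, n, I, O2, hO2, f, g, hfg⟩ := hMs x (hUM hx)
    have hxO : x ∈ O := by
      rw [hU] at hx
      exact hx.2
    obtain ⟨O3, hO3, hb3⟩ := bihol_restrict hfg hO2 hO
    have hx3 : x ∈ M ∩ W ∩ O := ⟨⟨hUM hx, hxW⟩, hxO⟩
    have h1 : EquiHol (M ∩ W ∩ O) x :=
      equiHol_of_bihol hb3 hx3 (equiHol_zeroSet I hO3 (hb3.mapsTo hx3))
    have h2 : M ∩ W ∩ O = U ∩ W := by
      rw [hU]
      ext z
      constructor
      · rintro ⟨⟨h1, h2⟩, h3⟩
        exact ⟨⟨h1, h3⟩, h2⟩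
      · rintro ⟨⟨h1, h2⟩, h3⟩
        exact ⟨⟨h1, h3⟩, h2⟩
    rw [h2] at h1
    exact equiHol_of_inter hW hxW h1
  exact scaled_of_uset hUS hq' hm hpk' ⟨W0, hW0, hq'W, hcomb⟩

end Vale.Agent.P274.H975
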