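import Vale.Agent.P274.H975.LocAlg

/-! The domains given by the scaling argument are Siegel domains of the second kind. -/

open Filter Metric Set Topology Complex ComplexConjugate

namespace Vale.Agent.P274.H975

open Vale.Agent.P274 Vale.Agent.P274.Z Vale.Agent.P274.H959 Vale.Agent.P274.V

/-- A domain biholomorphic to a bounded set contains no complex line. -/
theorem no_line {X Y : Type*} [NormedAddCommGroup X] [NormedSpace ℂ X]
    [NormedAddCommGroup Y] [NormedSpace ℂ Y] {S : Set X} {U : Set Y} (hS : IsOpen S)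
    (hU : Bornology.IsBounded U) (h : Biholomorphic S U) {x v : X}
    (hl : ∀ ζ : ℂ, x + ζ • v ∈ S) : v = 0 := by
  obtain ⟨Φ, Ψ, hΦ⟩ := h
  have hdiff : Differentiable ℂ (fun ζ : ℂ => Φ (x + ζ • v)) := by
    intro ζ
    have h1 : DifferentiableAt ℂ Φ (x + ζ • v) :=
      hΦ.diffOn.differentiableAt (hS.mem_nhds (hl ζ))
    have h2 : DifferentiableAt ℂ (fun ζ : ℂ => x + ζ • v) ζ := by fun_prop
    exact DifferentiableAt.comp ζ h1 h2
  have hbd : Bornology.IsBounded (range (fun ζ : ℂ => Φ (x + ζ • v))) := by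
    refine hU.subset ?_
    rintro _ ⟨ζ, rfl⟩
    exact hΦ.mapsTo (hl ζ)
  have heq : Φ (x + (1 : ℂ) • v) = Φ (x + (0 : ℂ) • v) :=
    hdiff.apply_eq_apply_of_bounded hbd 1 0
  have h1 := hΦ.left_inv _ (hl 1)
  rw [heq, hΦ.left_inv _ (hl 0)] at h1
  simp only [zero_smul, add_zero, one_smul] at h1
  have := h1.symm
  rwa [add_eq_left] at this

section

variable {Z : Type*} [NormedAddCommGroup Z] [NormedSpace ℂ Z] {k : ℕ}
  {F : Z →L[ℝ] Z →L[ℝ] (Fin k → ℂ)}

theorem smul_eq (c : ℂ) (x : Z) : c • x = c.re • x + c.im • (I • x) := by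
  conv_lhs => rw [← re_add_im c]
  rw [add_smul, mul_smul]
  rfl

theorem hermF_smul_left (hF : HermF F) (c : ℂ) (u v : Z) : F (c • u) v = c • F u v := by
  rw [smul_eq c u, map_add, map_smul, map_smul]
  change c.re • F u v + c.im • F (I • u) v = _
  rw [hF.I_left, smul_eq c (F u v)]

theorem hermF_smul_right (hF : HermF F) (c : ℂ) (u v : Z) :
    F u (c • v) = (starRingEnd ℂ) c • F u v := by
  funext j
  rw [hF.symm (c • v) u j, hermF_smul_left hF, Pi.smul_apply, Pi.smul_apply, smul_eq_mul,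
    smul_eq_mul, map_mul, hF.symm u v j, conj_conj]

theorem mem_Sg {Ω : Set (Fin k → ℝ)} (p : Z × (Fin k → ℂ)) :
    p ∈ Sg F Ω ↔ (fun j => (p.2 j).re - (F p.1 p.1 j).re) ∈ Ω := Iff.rfl

/-- The standard form of a Siegel domain. -/
theorem siegel_standard [FiniteDimensional ℂ Z] (hF : HermF F) {Ω : Set (Fin k → ℝ)}
    (hΩ : IsOpen Ω) (hne : Ω.Nonempty) (hcone : ∀ t : ℝ, 0 < t → ∀ x ∈ Ω, t • x ∈ Ω)
    (hS : IsOpen (Sg F Ω)) (hconv : Convex ℝ (Sg F Ω)) {Y : Type*} [NormedAddCommGroup Y]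
    [NormedSpace ℂ Y] {U : Set Y} (hU : Bornology.IsBounded U)
    (hb : Biholomorphic (Sg F Ω) U) :
    ∃ (l : ℕ) (S : Set ((Fin l → ℂ) × (Fin k → ℂ))), IsSiegelDomain S ∧
      ∃ L : (Z × (Fin k → ℂ)) ≃L[ℂ] ((Fin l → ℂ) × (Fin k → ℂ)), ∀ p, p ∈ Sg F Ω ↔ L p ∈ S := by
  set l := Module.finrank ℂ Z with hl
  have e : Z ≃L[ℂ] (Fin l → ℂ) := ContinuousLinearEquiv.ofFinrankEq (by simp [hl])
  let Fl : (Fin l → ℂ) →ₗ[ℂ] (Fin l → ℂ) →ₗ⋆[ℂ] (Fin k → ℂ) :=
    LinearMap.mk₂'ₛₗ (RingHom.id ℂ) (starRingEnd ℂ) (fun u v => F (e.symm u) (e.symm v))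
      (fun u u' v => by simp) (fun c u v => by
        rw [map_smul, hermF_smul_left hF]; rfl)
      (fun u v v' => by simp) (fun c u v => by
        rw [map_smul, hermF_smul_right hF])
  have hFl : ∀ u v, Fl u v = F (e.symm u) (e.symm v) := fun u v => rfl
  -- the cone is convex
  have hcpx : ∀ ρ : Fin k → ℝ, ((0 : Z), cpx ρ) ∈ Sg F Ω ↔ ρ ∈ Ω := by
    intro ρ
    rw [mem_Sg]
    have : (fun j => ((((0 : Z), cpx ρ).2) j).re -
        (F (((0 : Z), cpx ρ).1) (((0 : Z), cpx ρ).1) j).re) = ρ := by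
      funext j
      simp [cpx]
    rw [this]
  have hconvΩ : Convex ℝ Ω := by
    intro x hx y hy a b ha hb hab
    have h1 := hconv ((hcpx x).2 hx) ((hcpx y).2 hy) ha hb hab
    have h2 : a • ((0 : Z), cpx x) + b • ((0 : Z), cpx y) = ((0 : Z), cpx (a • x + b • y)) := by
      ext1
      · simp
      · funext j
        simp [cpx]
    rw [h2] at h1
    exact (hcpx _).1 h1
  -- the values of the Hermitian map
  have hval : ∀ z : Z, ∀ ρ ∈ Ω, ρ + (fun j => (F z z j).re) ∈ Ω := by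
    intro z ρ hρ
    have h1 : ∀ z' : Z, F z' z' = F z z →
        (z', cpx (ρ + fun j => (F z z j).re)) ∈ Sg F Ω := by
      intro z' hz'
      rw [mem_Sg]
      have : (fun j => ((cpx (ρ + fun j => (F z z j).re)) j).re - (F z' z' j).re) = ρ := by
        funext j
        rw [hz']
        simp [cpx]
      change (fun j => ((cpx (ρ + fun j => (F z z j).re)) j).re - (F z' z' j).re) ∈ Ω
      rwa [this]
    have h2 := hconv (h1 z rfl) (h1 (-z) (by simp)) (a := 1 / 2) (b := 1 / 2) (by norm_num)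
      (by norm_num) (by norm_num)
    have h3 : (1 / 2 : ℝ) • (z, cpx (ρ + fun j => (F z z j).re)) +
        (1 / 2 : ℝ) • (-z, cpx (ρ + fun j => (F z z j).re)) =
        ((0 : Z), cpx (ρ + fun j => (F z z j).re)) := by
      ext1
      · simp
      · change (1 / 2 : ℝ) • cpx (ρ + fun j => (F z z j).re) +
          (1 / 2 : ℝ) • cpx (ρ + fun j => (F z z j).re) = cpx (ρ + fun j => (F z z j).re)
        rw [← add_smul]
        norm_num
    rw [h3] at h2
    exact (hcpx _).1 h2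
  have hclo : ∀ z : Z, (fun j => (F z z j).re) ∈ closure Ω := by
    intro z
    obtain ⟨ρ, hρ⟩ := hne
    have h1 : Tendsto (fun t : ℝ => t • ρ + fun j => (F z z j).re) (𝓝[>] 0)
        (𝓝 (fun j => (F z z j).re)) := by
      have h2 : Continuous (fun t : ℝ => t • ρ + fun j => (F z z j).re) := by fun_prop
      have h3 := (h2.tendsto 0).mono_left (nhdsWithin_le_nhds (s := Ioi 0))
      simpa using h3
    refine mem_closure_of_tendsto h1 ?_
    filter_upwards [self_mem_nhdsWithin] with t ht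
    exact hval z _ (hcone t ht ρ hρ)
  -- no line in the closure of the cone
  have hadd : ∀ ρ ∈ Ω, ∀ y ∈ closure Ω, ρ + y ∈ Ω := by
    intro ρ hρ y hy
    have h1 := hconvΩ.combo_interior_closure_mem_interior (x := ρ) (y := y)
      (by rwa [hΩ.interior_eq]) hy (a := 1 / 2) (b := 1 / 2) (by norm_num) (by norm_num)
      (by norm_num)
    rw [hΩ.interior_eq] at h1
    have h2 := hcone 2 (by norm_num) _ h1
    have h3 : (2 : ℝ) • ((1 / 2 : ℝ) • ρ + (1 / 2 : ℝ) • y) = ρ + y := by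
      rw [smul_add, smul_smul, smul_smul]
      norm_num
    rwa [h3] at h2
  have hscal : ∀ t : ℝ, 0 < t → ∀ y ∈ closure Ω, t • y ∈ closure Ω := by
    intro t ht y hy
    exact map_mem_closure (continuous_const_smul t) hy (fun x hx => hcone t ht x hx)
  have hnl : ∀ x, x ∈ closure Ω → -x ∈ closure Ω → x = 0 := by
    intro x hx hx'
    obtain ⟨ρ, hρ⟩ := hne
    have h1 : ∀ t : ℝ, ρ + t • x ∈ Ω := by
      intro t
      rcases lt_trichotomy t 0 with h | h | h
      · have h2 := hadd ρ hρ _ (hscal (-t) (by linarith) _ hx')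
        rwa [neg_smul_neg] at h2
      · rw [h, zero_smul, add_zero]
        exact hρ
      · exact hadd ρ hρ _ (hscal t h _ hx)
    have h2 : ((0 : Z), cpx x) = 0 := by
      refine no_line hS hU hb (x := ((0 : Z), cpx ρ)) fun ζ => ?_
      rw [mem_Sg]
      have h3 : (fun j => (((((0 : Z), cpx ρ) + ζ • ((0 : Z), cpx x)).2) j).re -
          (F ((((0 : Z), cpx ρ) + ζ • ((0 : Z), cpx x)).1)
            ((((0 : Z), cpx ρ) + ζ • ((0 : Z), cpx x)).1) j).re) = ρ + ζ.re • x := by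
        funext j
        simp [cpx]
      rw [h3]
      exact h1 _
    have h3 : cpx x = 0 := congrArg Prod.snd h2
    funext j
    have h4 := congrFun h3 j
    simpa [cpx] using h4
  have hnz : ∀ z : Z, F z z = 0 → z = 0 := by
    intro z hz
    obtain ⟨ρ, hρ⟩ := hne
    have h2 : ((z, 0) : Z × (Fin k → ℂ)) = 0 := by
      refine no_line hS hU hb (x := ((0 : Z), cpx ρ)) fun ζ => ?_
      rw [mem_Sg]
      have h3 : (fun j => (((((0 : Z), cpx ρ) + ζ • ((z, 0) : Z × (Fin k → ℂ))).2) j).re -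
          (F ((((0 : Z), cpx ρ) + ζ • ((z, 0) : Z × (Fin k → ℂ))).1)
            ((((0 : Z), cpx ρ) + ζ • ((z, 0) : Z × (Fin k → ℂ))).1) j).re) = ρ := by
        have h4 : (((0 : Z), cpx ρ) + ζ • ((z, 0) : Z × (Fin k → ℂ))).1 = ζ • z := by simp
        rw [h4, hermF_smul_left hF, hermF_smul_right hF, hz]
        funext j
        simp [cpx]
      rw [h3]
      exact hρ
    exact congrArg Prod.fst h2
  refine ⟨l, {p | (fun j => (p.2 j).re - (Fl p.1 p.1 j).re) ∈ Ω},
    ⟨Ω, Fl, hΩ, hne, hconvΩ, hcone, hnl, fun u v j => ?_, fun z => ?_, fun z hz => ?_, rfl⟩,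
    e.prodCongr (ContinuousLinearEquiv.refl ℂ (Fin k → ℂ)), fun p => ?_⟩
  · rw [hFl, hFl]
    exact hF.symm _ _ j
  · simp only [hFl]
    exact hclo _
  · rw [hFl] at hz
    have := hnz _ hz
    simpa using this
  · rw [mem_Sg]
    change _ ↔ (fun j => (p.2 j).re - (Fl (e p.1) (e p.1) j).re) ∈ Ω
    simp only [hFl, ContinuousLinearEquiv.symm_apply_apply]

end

/-- A continuous linear equivalence gives a biholomorphic map. -/
theorem bihol_of_equiv {X Y : Type*} [NormedAddCommGroup X] [NormedSpace ℂ X]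
    [NormedAddCommGroup Y] [NormedSpace ℂ Y] (L : X ≃L[ℂ] Y) {S : Set X} {T : Set Y}
    (h : ∀ p, p ∈ S ↔ L p ∈ T) : IsBihol S T L L.symm := by
  refine ⟨HolOn.of_diffOn isOpen_univ (subset_univ _) L.differentiable.differentiableOn,
    HolOn.of_diffOn isOpen_univ (subset_univ _) L.symm.differentiable.differentiableOn,
    fun p hp => (h p).1 hp, fun q hq => ?_, fun p _ => L.symm_apply_apply p,
    fun q _ => L.apply_symm_apply q⟩
  rw [h, L.apply_symm_apply]
  exact hq

/-- The one-point Siegel domain. -/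
theorem isSiegelDomain_point : IsSiegelDomain (univ : Set ((Fin 0 → ℂ) × (Fin 0 → ℂ))) := by
  refine ⟨univ, 0, isOpen_univ, univ_nonempty, convex_univ, fun _ _ _ _ => mem_univ _,
    fun x _ _ => Subsingleton.elim _ _, fun u v j => j.elim0, fun z => ?_,
    fun z _ => Subsingleton.elim _ _, ?_⟩
  · rw [closure_univ]
    exact mem_univ _
  · ext p
    simp

/-- From the conclusion of the scaling argument to Siegel domains. -/
theorem siegel_of_scaled {N : ℕ} {U : Set (EuclideanSpace ℂ (Fin N))} (h : Scaled U) :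
    ∃ (l k : ℕ) (S : Set ((Fin l → ℂ) × (Fin k → ℂ))), IsSiegelDomain S ∧ Bihol U S := by
  rcases h with ⟨U1, hU1, hbi⟩ | ⟨n, U1, hn, h1, h2, h3, k, D, B, σ, Ω, hσ, h4, h5, h6, h7, h8, h9⟩
  · refine ⟨0, 0, univ, isSiegelDomain_point, hbi.trans ⟨fun _ => 0, fun _ => 0, ?_⟩⟩
    subst hU1
    exact ⟨HolOn.of_diffOn isOpen_univ (subset_univ _) (differentiableOn_const _),
      HolOn.of_diffOn isOpen_univ (subset_univ _) (differentiableOn_const _),
      fun _ _ => mem_univ _, fun _ _ => mem_univ _, fun x _ => Subsingleton.elim _ _,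
      fun y _ => Subsingleton.elim _ _⟩
  · obtain ⟨F, L, hF, hL⟩ := exists_linear_siegel B hσ Ω
    have hSo : IsOpen {y : EuclideanSpace ℂ (Fin n) | D y + Lev B (prj D σ y) ∈ Ω} :=
      isOpen_siegel h4
    have himg : Sg F Ω = L '' {y : EuclideanSpace ℂ (Fin n) | D y + Lev B (prj D σ y) ∈ Ω} := by
      ext p
      constructor
      · intro hp
        refine ⟨L.symm p, ?_, L.apply_symm_apply p⟩
        rw [mem_ofPred_eq, hL, L.apply_symm_apply]
        exact hp
      · rintro ⟨y, hy, rfl⟩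
        exact (hL y).1 hy
    have hSgo : IsOpen (Sg F Ω) := by
      rw [himg]
      exact L.toHomeomorph.isOpenMap _ hSo
    have hSgc : Convex ℝ (Sg F Ω) := by
      rw [himg]
      exact h9.is_linear_image (f := fun y => L y)
        ⟨fun x y => map_add L x y, fun c x => by
          have : (c • x : EuclideanSpace ℂ (Fin n)) = (c : ℂ) • x := rfl
          rw [this, map_smul]
          rfl⟩
    have hb1 : IsBihol {y : EuclideanSpace ℂ (Fin n) | D y + Lev B (prj D σ y) ∈ Ω} (Sg F Ω)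
        L L.symm := bihol_of_equiv L fun p => hL p
    obtain ⟨f, g, hfg⟩ := h8
    have hb2 : IsBihol U1 (Sg F Ω) (fun x => L (f x)) (fun x => g (L.symm x)) :=
      ((isBihol_iff h1 hSo).2 hfg).trans hb1
    obtain ⟨l, S, hSS, L2, hL2⟩ := siegel_standard hF h4 h6 h7 hSgo hSgc h2
      ⟨_, _, (isBihol_iff hSgo h1).1 hb2.symm⟩
    exact ⟨l, k, S, hSS, h3.trans ⟨_, _, hb2.trans (bihol_of_equiv L2 hL2)⟩⟩

end Vale.Agent.P274.H975
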