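import Vale.Agent.P274.H959.Local

/-! Bounded open subsets of closed complex submanifolds of `ℂ^N` (Stein manifolds) with a cocompact
group: the local theorem without algebraicity of the ambient set. -/

open Filter Metric Set Topology

namespace Vale.Agent.P274.H975

open Vale.Agent.P274 Vale.Agent.P274.Z Vale.Agent.P274.H959

/-- Schwarz lemma on the unit ball of a complex normed space. -/
theorem norm_sub_le_of_bounded {E : Type*} [NormedAddCommGroup E] [NormedSpace ℂ E] {F : E → ℂ}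
    (hF : DifferentiableOn ℂ F (ball 0 1)) (hb : ∀ e ∈ ball (0 : E) 1, ‖F e‖ ≤ 1)
    {e : E} (he : ‖e‖ < 1) : ‖F e - F 0‖ ≤ 4 * ‖e‖ := by
  rcases eq_or_ne e 0 with rfl | hne
  · simp
  have hpos : 0 < ‖e‖ := norm_pos_iff.2 hne
  have hec : ((‖e‖ : ℝ) : ℂ) ≠ 0 := by exact_mod_cast hpos.ne'
  -- the slice
  set φ : ℂ → ℂ := fun t => F (t • (((‖e‖ : ℝ) : ℂ)⁻¹ • e)) with hφ
  have hunit : ‖(((‖e‖ : ℝ) : ℂ)⁻¹ • e)‖ = 1 := by
    rw [norm_smul, norm_inv, Complex.norm_real, norm_norm, inv_mul_cancel₀ hpos.ne']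
  have hmaps : ∀ t ∈ ball (0 : ℂ) 1, t • (((‖e‖ : ℝ) : ℂ)⁻¹ • e) ∈ ball (0 : E) 1 := by
    intro t ht
    rw [mem_ball_zero_iff] at ht ⊢
    rw [norm_smul, hunit, mul_one]
    exact ht
  have hφd : DifferentiableOn ℂ φ (ball 0 1) := by
    have h1 : Differentiable ℂ (fun t : ℂ => t • (((‖e‖ : ℝ) : ℂ)⁻¹ • e)) :=
      differentiable_id.smul_const _
    exact hF.comp h1.differentiableOn hmaps
  have hφm : MapsTo φ (ball 0 1) (closedBall (φ 0) 4) := by
    intro t ht
    have h1 := hb _ (hmaps t ht)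
    have h2 := hb _ (hmaps 0 (mem_ball_self one_pos))
    rw [mem_closedBall, dist_eq_norm]
    have h3 := norm_sub_le (φ t) (φ 0)
    have h4 : ‖φ t‖ ≤ 1 := h1
    have h5 : ‖φ 0‖ ≤ 1 := h2
    linarith
  have ht : (((‖e‖ : ℝ) : ℂ)) ∈ ball (0 : ℂ) 1 := by
    rw [mem_ball_zero_iff, Complex.norm_real, norm_norm]
    exact he
  have h := Complex.dist_le_div_mul_dist_of_mapsTo_ball hφd hφm ht
  have h1 : φ (((‖e‖ : ℝ) : ℂ)) = F e := by
    simp only [hφ]
    rw [smul_smul, mul_inv_cancel₀ hec, one_smul]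
  have h2 : φ 0 = F 0 := by
    simp only [hφ, zero_smul]
  rw [h1, h2, dist_eq_norm, dist_zero_right, Complex.norm_real, norm_norm, div_one] at h
  exact h

/-- At a manifold point the bounded holomorphic functions are equicontinuous. -/
theorem equiHol_of_manPt {X E : Type*} [NormedAddCommGroup X] [NormedSpace ℂ X]
    [NormedAddCommGroup E] [NormedSpace ℂ E] {U : Set X} {x : X} (h : ManPt E U x) :
    EquiHol U x := by
  obtain ⟨σ, π, W, hp, hσ⟩ := h
  have h01 : (0 : E) ∈ ball (0 : E) 1 := mem_ball_self one_pos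
  have hxW : x ∈ U ∩ W := by
    rw [← hσ]
    exact hp.mapsσ h01
  have hπx : π x = 0 := by
    rw [← hσ]
    exact hp.left 0 h01
  intro ε hε
  have hc : ContinuousAt π x :=
    (hp.diffπ.differentiableAt (hp.isOpen.mem_nhds hxW.2)).continuousAt
  obtain ⟨δ1, hδ1, h1⟩ := Metric.continuousAt_iff.1 hc (min 1 (ε / 4)) (by positivity)
  obtain ⟨δ2, hδ2, h2⟩ := Metric.isOpen_iff.1 hp.isOpen x hxW.2
  refine ⟨min δ1 δ2, lt_min hδ1 hδ2, fun f hf hfb y hy hyx => ?_⟩
  have hyW : y ∈ W := h2 (hyx.trans_le (min_le_right _ _))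
  have h3 := h1 (hyx.trans_le (min_le_left _ _))
  rw [hπx, dist_zero_right] at h3
  have hF : DifferentiableOn ℂ (fun e => f (σ e)) (ball 0 1) :=
    hf.comp_diffOn isOpen_ball hp.diffσ fun e he => (hp.mapsσ he).1
  have h4 := norm_sub_le_of_bounded hF (fun e he => hfb _ (hp.mapsσ he).1)
    (e := π y) (h3.trans_le (min_le_left _ _))
  have h5 : σ (π y) = y := hp.right y ⟨hy, hyW⟩
  simp only [h5, hσ] at h4
  have h6 : ‖π y‖ ≤ ε / 4 := (h3.trans_le (min_le_right _ _)).le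
  linarith

/-- The local theorem for an arbitrary closed ambient set. -/
theorem scaled_of_uset {N : ℕ} {V O U K : Set (EuclideanSpace ℂ (Fin N))} (hUS : USet V O U K)
    {q : EuclideanSpace ℂ (Fin N)} (hq : q ∈ closure U) {n : ℕ}
    (hman : ManPt (EuclideanSpace ℂ (Fin n)) V q) (hpk : IsPeakAt U q)
    (hsa : IsSemianalyticAt U q) : Scaled U := by
  have hU : U = V ∩ O := hUS.eq
  have hO : IsOpen O := hUS.open_
  have hUZ : U ⊆ V := by
    rw [hU]
    exact inter_subset_left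
  rcases Nat.eq_zero_or_pos n with rfl | hn
  · -- dimension zero
    obtain ⟨σ, π, W, hp, hσ⟩ := hman
    have hqW : q ∈ W := by
      rw [← hσ]
      exact (hp.mapsσ (mem_ball_self one_pos)).2
    obtain ⟨u, huW, huU⟩ := mem_closure_iff_nhds.1 hq W (hp.isOpen.mem_nhds hqW)
    have huq : u = q := by
      rw [← hp.right u ⟨hUZ huU, huW⟩, ← hσ]
      congr 1
      exact Subsingleton.elim _ _
    subst huq
    exact scaled_of_singleton (eq_singleton_of_manPt hO hU hUS.conn huU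
      ⟨σ, π, W, hp, hσ⟩)
  · right
    have hnt : Nontrivial (EuclideanSpace ℂ (Fin n)) := by
      have : Nonempty (Fin n) := ⟨⟨0, hn⟩⟩
      infer_instance
    obtain ⟨W1, hW1, hqW1, P, hP, hPq, c, hc, hPle⟩ := hpk
    obtain ⟨W2, hW2, hqW2, hcomb⟩ := hsa
    obtain ⟨τ, π, W, hp, hτ0, hWW⟩ := exists_par_in (hW1.inter hW2) ⟨hqW1, hqW2⟩ hman
    have hpp : PeakPt (dom τ U) 0 := peakPt_chart hO hU hp hτ0 hq
      (hWW.trans inter_subset_left) hP hPq hc hPle
    have hmaps : MapsTo τ (ball 0 1) W2 := fun e he => (hWW (hp.mapsσ he).2).2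
    obtain ⟨F, hF, hFn, hF0⟩ := exists_chart_function_an hcomb hp.diffσ hmaps
    have hdom : {e | e ∈ ball (0 : EuclideanSpace ℂ (Fin n)) 1 ∧ τ e ∈ U ∩ W2} = dom τ U := by
      ext e
      exact ⟨fun h => ⟨h.1, h.2.1⟩, fun h => ⟨h.1, h.2, hmaps h.1⟩⟩
    rw [hdom] at hF0
    obtain ⟨U1, h1, h2, h3, h4⟩ := hUS.siegel hp hpp hF hFn hF0
    exact ⟨n, U1, hn, h1, h2, h3, h4⟩

/-- Bounded open subsets of closed complex submanifolds. -/
theorem scaled_of_submanifold {N : ℕ} {M O U K : Set (EuclideanSpace ℂ (Fin N))}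
    (hM : IsClosed M) (hMs : ∀ z ∈ M, IsSmoothAt M z) (hO : IsOpen O) (hU : U = M ∩ O)
    (hUc : IsConnected U) (hb : Bornology.IsBounded U)
    (hK : IsCompact K) (hKU : K ⊆ U) (hco : CocompactHol U K)
    {q : EuclideanSpace ℂ (Fin N)} (hq : q ∈ closure U) (hpk : IsPeakAt U q)
    (hsa : IsSemianalyticAt U q) : Scaled U := by
  have hUM : U ⊆ M := by
    rw [hU]
    exact inter_subset_left
  have hqM : q ∈ M := closure_minimal hUM hM hq
  obtain ⟨m, hm⟩ := manPt_of_smooth hqM (hMs q hqM)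
  have hUS : USet M O U K := by
    refine ⟨hM, hO, hU, hUc.isPreconnected, hb, hK, hKU, hco, fun x hx => ?_⟩
    obtain ⟨l, hl⟩ := manPt_of_smooth (hUM hx) (hMs x (hUM hx))
    have hxO : x ∈ O := by
      rw [hU] at hx
      exact hx.2
    have h1 := hl.inter_open hO hxO
    rw [← hU] at h1
    exact equiHol_of_manPt h1
  exact scaled_of_uset hUS hq hm hpk hsa

end Vale.Agent.P274.H975
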